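import Vale.Agent.P279.MathlibUsed

namespace Vale.Agent.P279

open MvPolynomial

/-- The complex projective plane. -/
abbrev PPlane := Projectivization ℂ (Fin 3 → ℂ)

/-- The plane curve `F = 0` has multiplicity at least `m` at `p`: every iterated partial derivative
of `F` of order less than `m` vanishes at `p`. -/
def MultAtLeast (F : MvPolynomial (Fin 3) ℂ) (p : PPlane) (m : ℕ) : Prop :=
  ∀ l : List (Fin 3), l.length < m → eval p.rep (l.foldr (fun j G => pderiv j G) F) = 0

/-- `G` is homogeneous in each of the `r` groups of three variables. -/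
def MultiHomogeneous {r : ℕ} (G : MvPolynomial (Fin r × Fin 3) ℂ) : Prop :=
  ∀ i : Fin r, ∃ e : ℕ, ∀ s ∈ G.support, ∑ k : Fin 3, s (i, k) = e

/-- Zariski closed subsets of `(P^2)^r`. -/
def IsZariskiClosed {r : ℕ} (Z : Set (Fin r → PPlane)) : Prop :=
  ∃ S : Set (MvPolynomial (Fin r × Fin 3) ℂ), (∀ G ∈ S, MultiHomogeneous G) ∧
    Z = {p | ∀ G ∈ S, eval (fun x : Fin r × Fin 3 => (p x.1).rep x.2) G = 0}

/-- `Q` holds for very general `r`-tuples of pairwise distinct points of `P^2`. -/
def VeryGenerally (r : ℕ) (Q : (Fin r → PPlane) → Prop) : Prop :=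
  ∃ Z : ℕ → Set (Fin r → PPlane),
    (∀ k, IsZariskiClosed (Z k) ∧ ∃ p, Function.Injective p ∧ p ∉ Z k) ∧
    ∀ p, Function.Injective p → (∀ k, p ∉ Z k) → Q p

end Vale.Agent.P279
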