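import Vale.Agent.P279.Bdl.B1
import Mathlib.Analysis.Complex.ExponentialBounds

/-!
Quasi-polynomial version of the near-nefness theorem.
-/

set_option linter.all false

namespace Vale.Agent.P279

open Finset

theorem cf_abs_le (l : ℕ) : |cf l| ≤ (l : ℝ) ^ l := by
  have h : ∀ l : ℕ, |cf l| ≤ (l.factorial : ℝ) := by
    intro l
    induction l with
    | zero => simp [cf_zero]
    | succ k ih =>
      rw [cf_succ, abs_mul, Nat.factorial_succ, Nat.cast_mul, mul_comm (((k + 1 : ℕ)) : ℝ)]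
      have h1 : |(1 : ℝ) / 2 - k| ≤ ((k + 1 : ℕ) : ℝ) := by
        have : (0 : ℝ) ≤ k := Nat.cast_nonneg k
        rw [abs_le]
        push_cast
        constructor <;> linarith
      exact mul_le_mul ih h1 (abs_nonneg _) (Nat.cast_nonneg _)
  refine (h l).trans ?_
  exact_mod_cast Nat.factorial_le_pow l

theorem quasi_diff (l : ℕ) (hl : 1 ≤ l) (κ : ℝ) (hκ : 1 ≤ κ) (n : ℕ)
    (hn : 4096 * (κ + 1) ^ 2 * (l : ℝ) ^ 2 ≤ n) (m : ℝ) (hm : 1 ≤ m)
    (hsm : |cf l| * (m * ((n : ℝ) / 8) ^ ((1 : ℝ) / 2 - l)) ≤ 1 / 4)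
    (hbig : l = 1 ∨
      1 / 4 < |cf (l - 1)| * (m * ((n : ℝ) / 8) ^ ((1 : ℝ) / 2 - ((l - 1 : ℕ) : ℝ))))
    (y : ℝ) (hy1 : -(n * m ^ 2 / 8) ≤ y) (hy2 : y ≤ κ * n * m ^ 2) (A : ℕ → ℤ)
    (hA : ∀ s : ℕ, n ≤ 4 * s → 4 * s ≤ 3 * n →
      |(A s : ℝ) - √(y + s * m ^ 2)| ≤ 1 / 2 ^ (l + 2)) : False := by
  have hlR : (1 : ℝ) ≤ l := by exact_mod_cast hl
  have hcf : 0 < |cf l| := abs_pos.mpr (cf_ne l)
  set ε : ℝ := 1 / 2 ^ (l + 2) with hε
  have hε0 : 0 < ε := by positivity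
  have hε1 : 2 ^ l * ε = 1 / 4 := by
    rw [hε, pow_add]
    field_simp
    norm_num
  have hl2 : (1 : ℝ) ≤ (l : ℝ) ^ 2 := by nlinarith only [hlR]
  have hκ2 : 2 * (κ + 1) ≤ (κ + 1) ^ 2 := by nlinarith only [hκ]
  have hll : (l : ℝ) ≤ (l : ℝ) ^ 2 := by nlinarith only [hlR]
  have hnl : 128 * (κ + 1) * (l : ℝ) ≤ n := by
    refine le_trans ?_ hn
    have h1 : (κ + 1) * (l : ℝ) ≤ (κ + 1) ^ 2 * (l : ℝ) ^ 2 := by
      apply mul_le_mul _ hll (by positivity) (by positivity)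
      nlinarith only [hκ, hκ2]
    have h2 : 0 ≤ (κ + 1) ^ 2 * (l : ℝ) ^ 2 := by positivity
    nlinarith only [h1, h2]
  have hn16R : 16 * (l : ℝ) ≤ n := by
    refine le_trans ?_ hnl
    have : 0 ≤ (l : ℝ) * (128 * κ + 112) := by positivity
    linarith only [this]
  have hn16 : 16 * l ≤ n := by exact_mod_cast hn16R
  have hnpos : (0 : ℝ) < n := by linarith only [hlR, hn16R]
  have hm0 : 0 < m := by linarith only [hm]
  set z : ℝ := y / m ^ 2 with hz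
  have hz1 : -(n / 8) ≤ z := by
    rw [hz, le_div_iff₀ (by positivity)]
    linarith only [hy1]
  have hz2 : z ≤ κ * n := by
    rw [hz, div_le_iff₀ (by (clear * - hm; positivity))]
    linarith only [hy2]
  have hg : ∀ x : ℝ, √(y + x * m ^ 2) = m * √(x + z) := by
    intro x
    rw [show y + x * m ^ 2 = m ^ 2 * (x + z) by rw [hz]; field_simp; ring,
      Real.sqrt_mul (by positivity), Real.sqrt_sq hm0.le]
  -- interval
  obtain ⟨u, hu1, hu2⟩ : ∃ u : ℕ, n ≤ 4 * u ∧ 4 * u ≤ n + 3 := ⟨(n + 3) / 4, by (clear * -; omega), by omega⟩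
  obtain ⟨v, hv1, hv2⟩ : ∃ v : ℕ, 4 * v ≤ 3 * n ∧ 3 * n ≤ 4 * v + 3 := ⟨3 * n / 4, by omega, by omega⟩
  have huv : u + 4 * l ≤ v := by omega
  have huR : (n : ℝ) / 4 ≤ u := by
    have : (n : ℝ) ≤ 4 * u := by exact_mod_cast hu1
    linarith only [this]
  have hvR : (v : ℝ) ≤ 3 * n / 4 := by
    have : (4 : ℝ) * v ≤ 3 * n := by exact_mod_cast hv1
    linarith only [this]
  have hclose : ∀ s : ℕ, u ≤ s → s ≤ v → |(A s : ℝ) - (fun x : ℝ => m * √(x + z)) (s : ℝ)| ≤ ε := by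
    intro s hs1 hs2
    have := hA s (by (clear * - hu1 hu2 hs1; omega)) (by omega)
    rwa [hg] at this
  have huz : (n : ℝ) / 8 ≤ u + z := by linarith only [hz1, huR]
  have huz0 : (0 : ℝ) < u + z := by linarith only [hlR, hn16R, hz1, huR]
  -- short differences vanish
  have hvan : ∀ s, u ≤ s → s + l ≤ v → (fwdDiff 1)^[l] A s = 0 := by
    intro s hs1 hs2
    have h1 := fwd_close A (fun x => m * √(x + z)) 1 ε l s (fun j hj => by
      have := hclose (s + j * 1) (by omega) (by omega)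
      exact_mod_cast this)
    obtain ⟨T, hT, hT1, hT2⟩ := sqrt_bounds l hl m z u v 1 hm0.le one_pos huz0 s
      (by exact_mod_cast hs1) (by
        have : ((s + l : ℕ) : ℝ) ≤ v := by exact_mod_cast hs2
        push_cast at this
        linarith only [this])
    rw [Nat.cast_one, hT] at h1
    have hT0 : 0 ≤ T := le_trans (by
      have : 0 ≤ (v : ℝ) + z := by
        have : (u : ℝ) ≤ v := by exact_mod_cast (by omega : u ≤ v)
        linarith only [hz1, huR, this]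
      (clear * - hm this; positivity)) hT1
    have h2 : |cf l * T| ≤ 1 / 4 := by
      rw [abs_mul, abs_of_nonneg hT0]
      refine le_trans (mul_le_mul_of_nonneg_left ?_ hcf.le) hsm
      refine hT2.trans ?_
      rw [one_pow, mul_one]
      have h4 : ((u : ℝ) + z) ^ ((1 : ℝ) / 2 - l) ≤ ((n : ℝ) / 8) ^ ((1 : ℝ) / 2 - l) :=
        Real.rpow_le_rpow_of_nonpos (by linarith only [hlR, hn16R]) huz (by linarith only [hlR])
      exact mul_le_mul_of_nonneg_left h4 hm0.le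
    have h5 : |(((fwdDiff 1)^[l] A s : ℤ) : ℝ)| < 1 := by
      have h6 := abs_add_le ((((fwdDiff 1)^[l] A s : ℤ) : ℝ) - cf l * T) (cf l * T)
      rw [sub_add_cancel] at h6
      linarith only [hε1, h1, h2, h6]
    have h7 : |(fwdDiff 1)^[l] A s| < 1 := by exact_mod_cast h5
    exact Int.abs_lt_one_iff.mp h7
  -- long differences
  obtain ⟨H, hH1, hH2⟩ : ∃ H : ℕ, 8 * l * H ≤ n ∧ n < 8 * l * (H + 1) := by
    refine ⟨n / (8 * l), Nat.mul_div_le _ _, ?_⟩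
    exact Nat.lt_mul_div_succ n (by (clear * - hl; omega))
  have hHl : u + l * H ≤ v := by
    have : 8 * (l * H) ≤ n := by rw [← mul_assoc]; exact hH1
    omega
  have hHpos : 1 ≤ H := by
    by_contra h
    have : H = 0 := by omega
    subst this
    omega
  have hHR : n ≤ H * (16 * (l : ℝ)) := by
    have h1 : (n : ℝ) < 8 * l * (H + 1) := by exact_mod_cast hH2
    have h2 : (1 : ℝ) ≤ H := by exact_mod_cast hHpos
    have h3 : (l : ℝ) * 1 ≤ l * H := mul_le_mul_of_nonneg_left h2 (by positivity)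
    linarith only [h1, h3]
  have hz0 := fwd_vanish H l A u v hvan u le_rfl hHl
  have h1 := fwd_close A (fun x => m * √(x + z)) H ε l u (fun j hj => by
    apply hclose
    · omega
    · have : j * H ≤ l * H := Nat.mul_le_mul_right _ hj
      omega)
  obtain ⟨T, hT, hT1, hT2⟩ := sqrt_bounds l hl m z u v H hm0.le (by exact_mod_cast hHpos) huz0 u
      le_rfl (by exact_mod_cast hHl)
  rw [hz0, hT, Int.cast_zero, zero_sub, abs_neg, abs_mul, hε1] at h1
  have hvz : (v : ℝ) + z ≤ (8 * (κ + 1)) * ((n : ℝ) / 8) := by linarith only [hz2, hvR]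
  have hvz0 : 0 < (v : ℝ) + z := by
    have : (u : ℝ) ≤ v := by exact_mod_cast (by omega : u ≤ v)
    linarith only [hlR, hn16R, hz1, huR, this]
  set X : ℝ := (n : ℝ) / 8 with hX
  set ρ : ℝ := 8 * (κ + 1) with hρ
  have hX0 : 0 < X := by rw [hX]; positivity
  have hρ1 : 16 ≤ ρ := by rw [hρ]; linarith only [hκ]
  have hH0 : (0 : ℝ) < H := by exact_mod_cast hHpos
  have hT0 : 0 ≤ T := le_trans (by positivity) hT1
  rw [abs_of_nonneg hT0] at h1
  have hTlow : m * (ρ * X) ^ ((1 : ℝ) / 2 - l) * (H : ℝ) ^ l ≤ T := by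
    refine le_trans ?_ hT1
    have h2 : (ρ * X) ^ ((1 : ℝ) / 2 - l) ≤ ((v : ℝ) + z) ^ ((1 : ℝ) / 2 - l) :=
      Real.rpow_le_rpow_of_nonpos hvz0 hvz (by linarith only [hlR])
    gcongr
  by_cases hl1 : l = 1
  · subst hl1
    have hc1 : |cf 1| = 1 / 2 := by
      have h0 : cf 1 = cf 0 * (1 / 2 - ((0 : ℕ) : ℝ)) := cf_succ 0
      rw [h0, cf_zero]; norm_num
    rw [hc1] at h1
    have h3 : (ρ * X) ^ ((1 : ℝ) / 2 - ((1 : ℕ) : ℝ)) = (√(ρ * X))⁻¹ := by
      rw [Real.sqrt_eq_rpow, ← Real.rpow_neg (by positivity)]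
      norm_num
    rw [h3, pow_one] at hTlow
    have hs0 : 0 < √(ρ * X) := Real.sqrt_pos.mpr (by positivity)
    have h4 : m * (√(ρ * X))⁻¹ * H ≤ 1 / 2 := by linarith only [hTlow, h1]
    have h5 : (H : ℝ) ≤ √(ρ * X) / 2 := by
      have h6 : 1 * (√(ρ * X))⁻¹ * H ≤ m * (√(ρ * X))⁻¹ * H := by gcongr
      have h7 : (√(ρ * X))⁻¹ * H ≤ 1 / 2 := by linarith only [h6, h4]
      rw [inv_mul_le_iff₀ hs0] at h7
      linarith only [h7]
    have h8 : (H : ℝ) ^ 2 ≤ (√(ρ * X) / 2) ^ 2 := by gcongr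
    rw [div_pow, Real.sq_sqrt (by positivity)] at h8
    have h9 : ρ * X = (κ + 1) * n := by rw [hρ, hX]; ring
    rw [h9] at h8
    simp only [Nat.cast_one, mul_one, one_pow] at hHR hn
    -- n ≤ 16 H, H^2 ≤ (κ+1) n / 4
    have h10 : (n : ℝ) ^ 2 ≤ 64 * ((κ + 1) * n) := by
      have : (n : ℝ) ^ 2 ≤ (H * 16) ^ 2 := by gcongr
      nlinarith only [this, h8]
    have h11 : (n : ℝ) ≤ 64 * (κ + 1) := by
      have : (n : ℝ) * n ≤ (64 * (κ + 1)) * n := by nlinarith only [h10]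
      exact le_of_mul_le_mul_right this hnpos
    nlinarith only [h11, hn, hκ2, hκ]
  · have hbig' := hbig.resolve_left hl1
    obtain ⟨k, rfl⟩ : ∃ k, l = k + 2 := ⟨l - 2, by omega⟩
    have hk0 : (0 : ℝ) ≤ k := Nat.cast_nonneg k
    rw [show k + 2 - 1 = k + 1 by omega] at hbig'
    have hcf2 : |cf (k + 1)| * (1 / 2) ≤ |cf (k + 2)| := by
      rw [show k + 2 = (k + 1) + 1 by ring, cf_succ (k + 1), abs_mul]
      apply mul_le_mul_of_nonneg_left _ (abs_nonneg _)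
      rw [abs_sub_comm]
      refine le_trans ?_ (le_abs_self _)
      push_cast
      linarith only [hk0]
    -- X ^ (1/2 - (k+2)) = X ^ (1/2 - (k+1)) / X
    have hXe : X ^ ((1 : ℝ) / 2 - ((k + 2 : ℕ) : ℝ)) =
        X ^ ((1 : ℝ) / 2 - ((k + 1 : ℕ) : ℝ)) / X := by
      rw [← Real.rpow_sub_one hX0.ne']
      congr 1
      push_cast
      ring
    have hρe : (ρ ^ (k + 2))⁻¹ ≤ ρ ^ ((1 : ℝ) / 2 - ((k + 2 : ℕ) : ℝ)) := by
      rw [← Real.rpow_natCast, ← Real.rpow_neg (by linarith only [hρ1])]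
      apply Real.rpow_le_rpow_of_exponent_le (by linarith only [hρ1])
      linarith only []
    have hq1 : 1 ≤ (H : ℝ) / ρ := by
      rw [le_div_iff₀ (by linarith only [hρ1]), one_mul]
      have h2 : 16 * ((k + 2 : ℕ) : ℝ) * ρ ≤ 16 * ((k + 2 : ℕ) : ℝ) * H := by
        calc 16 * ((k + 2 : ℕ) : ℝ) * ρ = 128 * (κ + 1) * ((k + 2 : ℕ) : ℝ) := by rw [hρ]; ring
          _ ≤ n := hnl
          _ ≤ _ := by linarith only [hHR]
      exact le_of_mul_le_mul_left h2 (by positivity)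
    have hq2 : 2 * X ≤ ((H : ℝ) / ρ) ^ 2 := by
      rw [div_pow, le_div_iff₀ (by positivity)]
      have h2 : (n : ℝ) ^ 2 ≤ (H * (16 * ((k + 2 : ℕ) : ℝ))) ^ 2 := by gcongr
      have h3 : 4096 * (κ + 1) ^ 2 * ((k + 2 : ℕ) : ℝ) ^ 2 * n ≤ n * n := by gcongr
      have h4 : 256 * ((k + 2 : ℕ) : ℝ) ^ 2 * (2 * X * ρ ^ 2) ≤
          256 * ((k + 2 : ℕ) : ℝ) ^ 2 * (H : ℝ) ^ 2 := by
        rw [hX, hρ]
        nlinarith only [h2, h3]
      exact le_of_mul_le_mul_left h4 (by positivity)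
    have hq3 : ((H : ℝ) / ρ) ^ 2 ≤ ((H : ℝ) / ρ) ^ (k + 2) :=
      pow_le_pow_right₀ hq1 (by omega)
    have hfin : 1 / 4 < |cf (k + 2)| * T := by
      calc (1 : ℝ) / 4 = (1 / 2) * (1 / 4) * (2 * X / X) := by field_simp
        _ ≤ (1 / 2) * (1 / 4) * (((H : ℝ) / ρ) ^ (k + 2) / X) := by
            gcongr
            exact hq2.trans hq3
        _ < (1 / 2) * (|cf (k + 1)| * (m * X ^ ((1 : ℝ) / 2 - ((k + 1 : ℕ) : ℝ)))) *
            (((H : ℝ) / ρ) ^ (k + 2) / X) := by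
            gcongr
        _ = (|cf (k + 1)| * (1 / 2)) * (m * ((ρ ^ (k + 2))⁻¹ *
            (X ^ ((1 : ℝ) / 2 - ((k + 1 : ℕ) : ℝ)) / X)) * (H : ℝ) ^ (k + 2)) := by
            rw [div_pow]
            field_simp
        _ ≤ |cf (k + 2)| * (m * (ρ ^ ((1 : ℝ) / 2 - ((k + 2 : ℕ) : ℝ)) *
            X ^ ((1 : ℝ) / 2 - ((k + 2 : ℕ) : ℝ))) * (H : ℝ) ^ (k + 2)) := by
            rw [hXe]
            gcongr
        _ = |cf (k + 2)| * (m * (ρ * X) ^ ((1 : ℝ) / 2 - ((k + 2 : ℕ) : ℝ)) *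
            (H : ℝ) ^ (k + 2)) := by
            rw [Real.mul_rpow (by positivity) hX0.le]
        _ ≤ |cf (k + 2)| * T := by gcongr
    linarith only [hfin, h1]

/-- The order of the differences. -/
theorem exists_order (X m : ℝ) (L : ℕ) (hL : 1 ≤ L)
    (h : |cf L| * (m * X ^ ((1 : ℝ) / 2 - (L : ℝ))) ≤ 1 / 4) :
    ∃ l : ℕ, 1 ≤ l ∧ l ≤ L ∧ |cf l| * (m * X ^ ((1 : ℝ) / 2 - (l : ℝ))) ≤ 1 / 4 ∧
      (l = 1 ∨ 1 / 4 < |cf (l - 1)| * (m * X ^ ((1 : ℝ) / 2 - ((l - 1 : ℕ) : ℝ)))) := by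
  classical
  have hex : ∃ l : ℕ, 1 ≤ l ∧ |cf l| * (m * X ^ ((1 : ℝ) / 2 - (l : ℝ))) ≤ 1 / 4 := ⟨L, hL, h⟩
  obtain ⟨h1, h2⟩ := Nat.find_spec hex
  refine ⟨Nat.find hex, h1, Nat.find_min' hex ⟨hL, h⟩, h2, ?_⟩
  by_cases h3 : Nat.find hex = 1
  · exact Or.inl h3
  · right
    have h4 := Nat.find_min hex (m := Nat.find hex - 1) (by omega)
    rw [not_and, not_le] at h4
    exact h4 (by omega)

/-- A sufficient condition for the differences of order `L` to be small. -/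
theorem small_order (x n m : ℝ) (L : ℕ) (hL : 1 ≤ L) (hx : 16 ≤ x) (hLx : (L : ℝ) ≤ x)
    (hn : x ^ 6 ≤ n) (hm0 : 0 ≤ m) (hm : m ≤ x ^ L) :
    |cf L| * (m * (n / 8) ^ ((1 : ℝ) / 2 - (L : ℝ))) ≤ 1 / 4 := by
  have hx0 : 0 < x := by linarith
  set X : ℝ := n / 8 with hX
  have hX6 : x ^ 6 / 8 ≤ X := by rw [hX]; linarith only [hn]
  have hX0 : 0 < X := lt_of_lt_of_le (by positivity) hX6
  clear_value X
  have hL0 : (0 : ℝ) ≤ L := Nat.cast_nonneg L
  have h1 : X ^ ((1 : ℝ) / 2 - (L : ℝ)) = √X / X ^ L := by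
    rw [Real.rpow_sub hX0, Real.rpow_natCast, Real.sqrt_eq_rpow]
  rw [h1]
  have hs0 : 0 < √X := Real.sqrt_pos.mpr hX0
  have hss : √X * √X = X := Real.mul_self_sqrt hX0.le
  have h2 : x ^ 2 ≤ X := by
    refine le_trans ?_ hX6
    have h3 : (16 : ℝ) ^ 4 ≤ x ^ 4 := by gcongr
    nlinarith only [h3, sq_nonneg x, mul_le_mul_of_nonneg_right h3 (sq_nonneg x)]
  have h3 : x ^ 3 / 4 ≤ √X := by
    apply Real.le_sqrt_of_sq_le
    refine le_trans ?_ hX6
    have : 0 ≤ x ^ 6 := by positivity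
    nlinarith only [this]
  have h4 : x ^ 2 ≤ √X / 4 := by
    have : 16 * x ^ 2 ≤ x * x ^ 2 := by gcongr
    nlinarith only [h3, this]
  have hq : x ^ 2 / X ≤ 1 := by rw [div_le_one hX0]; exact h2
  calc |cf L| * (m * (√X / X ^ L)) ≤ (L : ℝ) ^ L * (x ^ L * (√X / X ^ L)) := by
        gcongr
        exact cf_abs_le L
    _ ≤ x ^ L * (x ^ L * (√X / X ^ L)) := by gcongr
    _ = (x ^ 2 / X) ^ L * √X := by
        rw [div_pow (x ^ 2)]
        ring
    _ ≤ (x ^ 2 / X) ^ 1 * √X := by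
        gcongr ?_ * √X
        exact pow_le_pow_of_le_one (by positivity) hq hL
    _ = x ^ 2 / √X := by
        rw [pow_one]
        nth_rewrite 1 [← hss]
        field_simp
    _ ≤ 1 / 4 := by
        rw [div_le_iff₀ hs0]
        linarith only [h4]

theorem quasi_key (κ : ℝ) (hκ : 1 ≤ κ) (x : ℝ) (hx : 16 ≤ x) (L : ℕ) (hL : 1 ≤ L)
    (hLx : (L : ℝ) ≤ x) (n : ℕ) (hn6 : x ^ 6 ≤ n)
    (hn : 4096 * (κ + 2) ^ 2 * (L : ℝ) ^ 2 ≤ n) (b c e m : ℕ) (hm : 1 ≤ m)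
    (hmx : (m : ℝ) ≤ x ^ L) (hE : Eff b c (vec n e m))
    (ha : ((e : ℝ) - m) ^ 2 ≤ 2 * m) (hc : (c : ℝ) ^ 2 ≤ κ * n * (m : ℝ) ^ 2)
    (hb : (n : ℝ) * (b : ℝ) ^ 2 ≤ n * (c : ℝ) ^ 2 + (((n : ℝ) - 1) * m + e) ^ 2)
    (ω : ℝ) (hω : 0 ≤ ω) (htol : 12 * (ω * m / √n) + 6 / n ≤ 1 / 2 ^ (L + 2))
    (hN : ∀ s : ℕ, n ≤ 4 * s → ∀ γ : ℝ, 0 ≤ γ → γ ^ 2 ≤ (16 * κ + 16) * s → Nef s γ ω) :
    False := by
  have hmR : (1 : ℝ) ≤ m := by exact_mod_cast hm
  obtain ⟨l, hl1, hlL, hsm, hbig⟩ := exists_order ((n : ℝ) / 8) m L hL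
    (small_order x n m L hL hx hLx hn6 (by linarith only [hmR]) hmx)
  have hlR : (1 : ℝ) ≤ l := by exact_mod_cast hl1
  have hlLR : (l : ℝ) ≤ L := by exact_mod_cast hlL
  have hnl : 4096 * (κ + 1 + 1) ^ 2 * (l : ℝ) ^ 2 ≤ n := by
    refine le_trans ?_ hn
    rw [show κ + 1 + 1 = κ + 2 by ring]
    gcongr
  have hn32 : (32 : ℝ) ≤ n := by
    refine le_trans ?_ hnl
    have h1 : 1 ≤ (κ + 1 + 1) ^ 2 := by nlinarith only [hκ]
    have h2 : 1 ≤ (l : ℝ) ^ 2 := by nlinarith only [hlR]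
    have h3 : 1 * 1 ≤ (κ + 1 + 1) ^ 2 * (l : ℝ) ^ 2 := by gcongr
    nlinarith only [h3]
  have hn32' : 32 ≤ n := by exact_mod_cast hn32
  obtain ⟨ha1, ha2⟩ := abs_le.mp (near_abs hmR ha)
  apply quasi_diff l hl1 (κ + 1) (by linarith only [hκ]) n hnl (m : ℝ) hmR hsm hbig
    ((c : ℝ) ^ 2 + 2 * m * ((e : ℝ) - m)) ?_ ?_
    (fun s => ((sInf {l : ℕ | Eff l c (vec s e m)} : ℕ) : ℤ)) ?_
  · nlinarith only [hn32, ha1, hmR, sq_nonneg (c : ℝ)]
  · nlinarith only [hc, hn32, ha2, hmR]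
  · intro s hs1 hs2
    obtain ⟨t, ht⟩ : ∃ t, s + t = n := ⟨n - s, by omega⟩
    have ht4 : n ≤ 4 * t := by omega
    obtain ⟨h1, h2⟩ := block_bounds ht (by omega) hs1 ht4 hκ hω hm hE ha hc hb (hN s hs1)
      (hN t ht4)
    have hs4 : (n : ℝ) ≤ 4 * s := by exact_mod_cast hs1
    have hG : (n : ℝ) * (m : ℝ) ^ 2 / 8
        ≤ (c : ℝ) ^ 2 + 2 * m * ((e : ℝ) - m) + s * (m : ℝ) ^ 2 := by
      have h3 : 0 ≤ (m : ℝ) ^ 2 * (4 * s - n) := by
        apply mul_nonneg (by positivity); linarith only [hs4]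
      have h4 : 0 ≤ (m : ℝ) ^ 2 * (n - 32) := by
        apply mul_nonneg (by positivity); linarith only [hn32]
      nlinarith only [h3, h4, ha1, hmR, sq_nonneg (c : ℝ)]
    have h5 := key_arith3 (by linarith only [hn32]) hmR hω (by (clear * -; positivity)) hG h1 h2
    push_cast
    refine (h5.trans htol).trans ?_
    gcongr
    norm_num

/-- The induction over the levels, with explicit constants. -/
theorem quasi_level (k : ℕ) (hk : 2 ≤ k) : ∀ j : ℕ, j + 2 ≤ k → ∀ n : ℕ,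
    64 ^ (6 * k) * 4 ^ j ≤ n → ∀ γ : ℝ, 0 ≤ γ → γ ^ 2 ≤ ((64 : ℝ) ^ (k - j) - 2) * n →
    Nef n γ (2 * 64 ^ k / ((64 : ℝ) ^ k) ^ j) := by
  set x : ℝ := (64 : ℝ) ^ k with hx
  have hx64 : 64 ^ 2 ≤ x := pow_le_pow_right₀ (by norm_num) hk
  have hx1 : 1 ≤ x := by linarith only [hx64]
  have hx0 : 0 < x := by linarith only [hx64]
  have hk2 : (2 : ℝ) ^ k * 2 ^ k * 2 ^ k * 2 ^ k * 2 ^ k * 2 ^ k = x := by
    rw [hx, ← mul_pow, ← mul_pow, ← mul_pow, ← mul_pow, ← mul_pow]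
    norm_num
  have h2k4 : (4 : ℝ) ≤ 2 ^ k := by
    calc (4 : ℝ) = 2 ^ 2 := by norm_num
      _ ≤ 2 ^ k := pow_le_pow_right₀ (by norm_num) hk
  have hkx : (k : ℝ) ≤ 2 ^ k := by
    have : k < 2 ^ k := Nat.lt_two_pow_self
    exact_mod_cast this.le
  have hn6 : ∀ j n : ℕ, 64 ^ (6 * k) * 4 ^ j ≤ n → x ^ 6 ≤ n := by
    intro j n h
    have h1 : 64 ^ (6 * k) ≤ n := le_trans (Nat.le_mul_of_pos_right _ (by positivity)) h
    have h2 : ((64 ^ (6 * k) : ℕ) : ℝ) ≤ n := by exact_mod_cast h1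
    rw [hx, ← pow_mul, mul_comm k 6]
    push_cast at h2
    exact h2
  intro j
  induction j with
  | zero =>
    intro hj n hn γ hγ hγκ
    have hn6' := hn6 0 n hn
    rw [Nat.sub_zero, ← hx] at hγκ
    rw [pow_zero, div_one]
    have hx2 : 16 * x ≤ x ^ 6 := by
      have h1 : x ^ 2 ≤ x ^ 6 := pow_le_pow_right₀ hx1 (by norm_num)
      nlinarith only [h1, hx64]
    by_contra hnef
    obtain ⟨b, c, m, hb, hE, hv⟩ := viol_of_not_nef hnef
    have hn10 : 10 ≤ n := by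
      have : (10 : ℝ) ≤ n := by linarith only [hx2, hn6', hx64]
      exact_mod_cast this
    obtain ⟨b', c', e, μ, -, -, -, hμ, -, -, -, -, hω⟩ :=
      shape (κ := x - 2) hn10 (by linarith only [hx64]) (by linarith only [hx2, hn6', hx0]) hγ hγκ
        (by positivity) hb hE hv
    have hμR : (1 : ℝ) ≤ μ := by exact_mod_cast hμ
    have h3 : 2 * x * 1 ≤ 2 * x * μ := by gcongr
    linarith only [h3, hω]
  | succ j ih =>
    intro hj n hn γ hγ hγκ
    have hn6' := hn6 (j + 1) n hn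
    -- the ratio
    obtain ⟨i, hi⟩ : ∃ i, k - (j + 1) = i + 1 := ⟨k - (j + 1) - 1, by omega⟩
    have hi2 : k - j = i + 2 := by omega
    rw [hi] at hγκ
    set y : ℝ := (64 : ℝ) ^ (i + 1) with hy
    have hy64 : 64 ≤ y := by
      calc (64 : ℝ) = 64 ^ 1 := by norm_num
        _ ≤ y := pow_le_pow_right₀ (by norm_num) (by omega)
    have hyx : y * 64 ≤ x := by
      rw [hy, hx, ← pow_succ]
      exact pow_le_pow_right₀ (by norm_num) (by omega)
    have hxx : x ^ 2 ≤ x ^ 6 := pow_le_pow_right₀ hx1 (by norm_num)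
    by_contra hnef
    obtain ⟨b, c, m, hb, hE, hv⟩ := viol_of_not_nef hnef
    have hn10R : (10 : ℝ) ≤ n := by nlinarith only [hxx, hn6', hx64]
    have hn10 : 10 ≤ n := by exact_mod_cast hn10R
    obtain ⟨b', c', e, μ, -, -, -, hμ, hE', ha, hc, hbb, hω⟩ :=
      shape (κ := y - 2) hn10 (by linarith only [hy64]) (by nlinarith only [hxx, hn6', hx64, hyx])
        hγ hγκ (by positivity) hb hE hv
    have hμR : (1 : ℝ) ≤ μ := by exact_mod_cast hμ
    have hμy : (μ : ℝ) ≤ y * x ^ j := by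
      have h1 : 2 * x / x ^ (j + 1) * μ = 2 * (μ / x ^ j) := by
        rw [pow_succ]; field_simp
      rw [h1] at hω
      have h2 : (μ : ℝ) / x ^ j ≤ y := by linarith only [hω]
      rwa [div_le_iff₀ (by positivity)] at h2
    have hμx : (μ : ℝ) ≤ x ^ (j + 1) := by
      refine hμy.trans ?_
      rw [pow_succ, mul_comm]
      gcongr
      linarith only [hyx, hy64]
    have hsn : x ^ 3 ≤ √(n : ℝ) := by
      apply Real.le_sqrt_of_sq_le
      rw [← pow_mul]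
      exact hn6'
    have hsn0 : 0 < √(n : ℝ) := lt_of_lt_of_le (by positivity) hsn
    have hjk : ((j + 1 : ℕ) : ℝ) ≤ 2 ^ k := by
      refine le_trans ?_ hkx
      exact_mod_cast (by omega : j + 1 ≤ k)
    have h2kx : (2 : ℝ) ^ k * 2 ^ k * 64 ≤ x := by
      rw [← hk2]
      have h1 : (4 : ℝ) ^ 4 ≤ (2 ^ k) ^ 4 := by gcongr
      have h2 : 0 ≤ (2 : ℝ) ^ k * 2 ^ k := by positivity
      nlinarith only [h1, h2, mul_le_mul_of_nonneg_left h1 h2]
    have h2k : (2 : ℝ) ^ k * 64 ≤ x := by nlinarith only [h2kx, h2k4]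
    refine quasi_key (4 * (y - 2 + 1)) (by linarith only [hy64]) x (by linarith only [hx64])
      (j + 1) (by omega) (by linarith only [hjk, h2k, h2k4]) n hn6' ?_ b' c' e μ hμ hμx hE' ha
      (by exact_mod_cast hc) hbb (2 * x / x ^ j) (by positivity) ?_ ?_
    · -- size of n
      have h1 : (4 * (y - 2 + 1) + 2) ^ 2 ≤ (x / 16) ^ 2 := by
        gcongr
        · linarith only [hy64]
        · linarith only [hyx, hy64]
      have h2 : ((j + 1 : ℕ) : ℝ) ^ 2 ≤ x := by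
        calc ((j + 1 : ℕ) : ℝ) ^ 2 ≤ (2 ^ k) ^ 2 := by gcongr
          _ ≤ x := by nlinarith only [h2kx, h2k4]
      calc 4096 * (4 * (y - 2 + 1) + 2) ^ 2 * ((j + 1 : ℕ) : ℝ) ^ 2
          ≤ 4096 * (x / 16) ^ 2 * x := by gcongr
        _ = 16 * x * x ^ 2 := by ring
        _ ≤ x * x * x ^ 2 := by gcongr; linarith only [hx64]
        _ = x ^ 4 := by ring
        _ ≤ x ^ 6 := pow_le_pow_right₀ hx1 (by norm_num)
        _ ≤ n := hn6'
    · -- tolerance
      have h1 : 2 * x / x ^ j * μ / √n ≤ 2 / x := by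
        have h3 : 2 * x / x ^ j * μ ≤ 2 * x * y := by
          rw [div_mul_eq_mul_div, div_le_iff₀ (by positivity)]
          calc 2 * x * μ ≤ 2 * x * (y * x ^ j) := by gcongr
            _ = 2 * x * y * x ^ j := by ring
        have h4 : 2 * x / x ^ j * μ ≤ 2 * x * x := by
          refine h3.trans ?_
          gcongr
          linarith only [hyx, hy64]
        calc 2 * x / x ^ j * μ / √n ≤ 2 * x * x / √n := div_le_div_of_nonneg_right h4 hsn0.le
          _ ≤ 2 * x * x / x ^ 3 := by gcongr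
          _ = 2 / x := by field_simp
      have h2 : 6 / (n : ℝ) ≤ 6 / x := by
        gcongr
        refine le_trans ?_ hn6'
        calc x = x ^ 1 := (pow_one x).symm
          _ ≤ x ^ 6 := pow_le_pow_right₀ hx1 (by norm_num)
      calc 12 * (2 * x / x ^ j * μ / √n) + 6 / n ≤ 12 * (2 / x) + 6 / x := by gcongr
        _ = 30 / x := by ring
        _ ≤ 1 / 2 ^ k := by
            rw [div_le_div_iff₀ hx0 (by positivity)]
            linarith only [h2k, h2k4]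
        _ ≤ 1 / 2 ^ (j + 1 + 2) := by
            apply one_div_le_one_div_of_le (by positivity)
            exact pow_le_pow_right₀ (by norm_num) (by omega)
    · intro s hs γ' hγ' hγκ'
      apply ih (by omega) s _ γ' hγ'
      · have h1 : (64 : ℝ) ^ (k - j) = y * 64 := by rw [hi2, hy, ← pow_succ]
        rw [h1]
        refine hγκ'.trans ?_
        gcongr
        linarith only []
      · rw [pow_succ, ← mul_assoc] at hn
        omega

/-- The level used for `n` points. -/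
theorem exists_level (n : ℕ) (K : ℕ) (hn : (64 ^ 7) ^ K ≤ n) : ∃ k : ℕ, K ≤ k ∧
    64 ^ (7 * k) ≤ n ∧ Real.log n ≤ 7 * (k + 1) * Real.log 64 := by
  have hn0 : n ≠ 0 := by
    have : 0 < (64 ^ 7) ^ K := by positivity
    omega
  refine ⟨Nat.log (64 ^ 7) n, ?_, ?_, ?_⟩
  · exact (Nat.le_log_iff_pow_le (by norm_num) hn0).mpr hn
  · rw [pow_mul]
    exact Nat.pow_log_le_self _ hn0
  · have h1 : n < (64 ^ 7) ^ (Nat.log (64 ^ 7) n + 1) := Nat.lt_pow_succ_log_self (by norm_num) n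
    have h2 : (n : ℝ) ≤ ((64 : ℝ) ^ 7) ^ (Nat.log (64 ^ 7) n + 1) := by exact_mod_cast h1.le
    generalize Nat.log (64 ^ 7) n = K' at h2 ⊢
    have h3 := Real.log_le_log (by positivity) h2
    rw [Real.log_pow, Real.log_pow] at h3
    push_cast at h3
    linarith only [h3]

theorem log64_bounds : 4 ≤ Real.log 64 ∧ Real.log 64 ≤ 4.16 := by
  have h1 : Real.log 64 = 6 * Real.log 2 := by
    rw [show (64 : ℝ) = 2 ^ 6 by norm_num, Real.log_pow]
    norm_num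
  have h2 := Real.log_two_gt_d9
  have h3 := Real.log_two_lt_d9
  rw [h1]
  constructor <;> linarith

/-- The comparison of exponents. -/
theorem exp_log_le (n k : ℕ) (hk : 20 ≤ k) (h : Real.log n ≤ 7 * (k + 1) * Real.log 64)
    (hn : 1 ≤ n) : Real.exp (Real.log n ^ 2 / 400) ≤ (64 : ℝ) ^ (k * (k - 4)) := by
  obtain ⟨h1, h2⟩ := log64_bounds
  have hk20 : (20 : ℝ) ≤ k := by exact_mod_cast hk
  have h3 : (64 : ℝ) ^ (k * (k - 4)) = Real.exp ((k * (k - 4) : ℕ) * Real.log 64) := by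
    rw [Real.exp_nat_mul, Real.exp_log (by norm_num)]
  rw [h3, Real.exp_le_exp]
  have h4 : ((k * (k - 4) : ℕ) : ℝ) = k * (k - 4) := by
    rw [Nat.cast_mul, Nat.cast_sub (by omega)]
    norm_num
  rw [h4]
  have h0 : 0 ≤ Real.log n := Real.log_nonneg (by exact_mod_cast hn)
  have h5 : Real.log n ^ 2 ≤ (7 * (k + 1) * Real.log 64) ^ 2 := by gcongr
  have h6 : (7 * ((k : ℝ) + 1) * Real.log 64) ^ 2 ≤ 49 * (k + 1) ^ 2 * 4.16 * Real.log 64 := by
    have : Real.log 64 * Real.log 64 ≤ 4.16 * Real.log 64 := by gcongr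
    nlinarith only [this, sq_nonneg ((k : ℝ) + 1)]
  have h7 : 49 * ((k : ℝ) + 1) ^ 2 * 4.16 ≤ 400 * (k * (k - 4)) := by nlinarith only [hk20]
  have h8 : 49 * ((k : ℝ) + 1) ^ 2 * 4.16 * Real.log 64 ≤ 400 * (k * (k - 4)) * Real.log 64 := by
    gcongr
  linarith only [h5, h6, h8]

theorem close_large (n : ℕ) (hn0 : 64 ^ 140 ≤ n) (b c : ℕ) (m : Fin n → ℕ) (hE : Eff b c m) :
    ∑ i, (m i : ℝ) ≤ b * √(n + 2 * Real.exp (-(Real.log n ^ 2 / 400))) := by
  obtain ⟨k, hk, hkn, hlog⟩ := exists_level n 20 ((pow_mul 64 7 20).symm.trans_le hn0)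
  have hn1 : 1 ≤ n := le_trans (Nat.one_le_pow _ _ (by norm_num)) hn0
  have hkn2 : 64 ^ (6 * k) * 4 ^ (k - 2) ≤ n := by
    refine le_trans ?_ hkn
    rw [show 7 * k = 6 * k + k by ring, pow_add]
    apply Nat.mul_le_mul_left
    exact le_trans (Nat.pow_le_pow_left (by norm_num) _) (Nat.pow_le_pow_right (by norm_num) (by omega))
  have h1 := quasi_level k (by omega) (k - 2) (by omega) n hkn2 0 le_rfl (by
    rw [show k - (k - 2) = 2 by omega]
    norm_num) b c m hE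
  simp only [mul_zero, zero_add, ne_eq, OfNat.ofNat_ne_zero, not_false_eq_true, zero_pow] at h1
  refine h1.trans ?_
  have h2 := exp_log_le n k hk hlog hn1
  have h3 : (2 : ℝ) * 64 ^ k / (64 ^ k) ^ (k - 2) ≤ 2 * Real.exp (-(Real.log n ^ 2 / 400)) := by
    have h4 : ((64 : ℝ) ^ k) ^ (k - 2) = 64 ^ k * 64 ^ (k * (k - 4)) * 64 ^ k := by
      rw [← pow_mul, ← pow_add, ← pow_add]
      congr 1
      obtain ⟨i, rfl⟩ : ∃ i, k = i + 4 := ⟨k - 4, by omega⟩
      simp only [show i + 4 - 2 = i + 2 by omega, show i + 4 - 4 = i by omega]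
      ring
    rw [h4, Real.exp_neg]
    have h5 : (0 : ℝ) < 64 ^ k := by positivity
    calc (2 : ℝ) * 64 ^ k / (64 ^ k * 64 ^ (k * (k - 4)) * 64 ^ k)
        = 2 / (64 ^ (k * (k - 4)) * 64 ^ k) := by field_simp
      _ ≤ 2 / (Real.exp (Real.log n ^ 2 / 400) * 1) := by
          gcongr
          exact one_le_pow₀ (by norm_num)
      _ = 2 * (Real.exp (Real.log n ^ 2 / 400))⁻¹ := by rw [mul_one]; exact div_eq_mul_inv _ _
  gcongr

theorem close_quasi : ∃ C : ℝ, 0 ≤ C ∧ ∀ n : ℕ, 10 ≤ n → ∀ (b c : ℕ) (m : Fin n → ℕ),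
    Eff b c m → ∑ i, (m i : ℝ) ≤ b * √(n + C * Real.exp (-(Real.log n ^ 2 / 400))) := by
  obtain ⟨n₀, hn₀⟩ : ∃ n₀ : ℕ, n₀ = 64 ^ 140 := ⟨_, rfl⟩
  set C : ℝ := max 2 ((n₀ : ℝ) ^ 2 * Real.exp (Real.log n₀ ^ 2 / 400)) with hC
  have hC0 : 0 ≤ C := le_trans (by norm_num) (le_max_left _ _)
  refine ⟨C, hC0, ?_⟩
  intro n hn b c m hE
  have hnR : (10 : ℝ) ≤ n := by exact_mod_cast hn
  by_cases hn0 : n₀ ≤ n
  · refine (close_large n (hn₀ ▸ hn0) b c m hE).trans ?_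
    gcongr
    exact le_max_left _ _
  · have h3 : ∑ i, (m i : ℝ) ≤ n * b := by
      calc ∑ i, (m i : ℝ) ≤ ∑ _i : Fin n, (b : ℝ) := by
            apply Finset.sum_le_sum
            intro i _
            exact_mod_cast eff_le hE i
        _ = n * b := by simp only [Finset.sum_const, Finset.card_univ, Fintype.card_fin, nsmul_eq_mul]
    refine h3.trans ?_
    rw [mul_comm]
    have h4 : (n : ℝ) ≤ √(n + C * Real.exp (-(Real.log n ^ 2 / 400))) := by
      apply Real.le_sqrt_of_sq_le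
      have hnn : (n : ℝ) ≤ n₀ := by exact_mod_cast (by omega : n ≤ n₀)
      have h5 : (n : ℝ) ^ 2 ≤ C * Real.exp (-(Real.log n ^ 2 / 400)) := by
        have hl0 : 0 ≤ Real.log n := Real.log_nonneg (by linarith only [hnR])
        have hl : Real.log n ≤ Real.log n₀ := Real.log_le_log (by linarith only [hnR]) hnn
        calc (n : ℝ) ^ 2 = (n : ℝ) ^ 2 * Real.exp (Real.log n ^ 2 / 400) *
              Real.exp (-(Real.log n ^ 2 / 400)) := by
              rw [mul_assoc, ← Real.exp_add, add_neg_cancel, Real.exp_zero, mul_one]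
          _ ≤ (n₀ : ℝ) ^ 2 * Real.exp (Real.log n₀ ^ 2 / 400) *
              Real.exp (-(Real.log n ^ 2 / 400)) := by gcongr
          _ ≤ C * Real.exp (-(Real.log n ^ 2 / 400)) := by
              gcongr
              exact le_max_right _ _
      linarith only [h5, hnR]
    (clear * - h4; gcongr)

theorem strict_quasi (n : ℕ) (hn : 64 ^ 140 ≤ n) (b c : ℕ) (m : Fin n → ℕ) (hb : 1 ≤ b)
    (hbn : (b : ℝ) ≤ Real.exp (Real.log n ^ 2 / 400)) (hE : Eff b c m) :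
    ∑ i, (m i : ℝ) < b * √n := by
  by_contra hv
  push Not at hv
  obtain ⟨k, hk, hkn, hlog⟩ := exists_level n 20 ((pow_mul 64 7 20).symm.trans_le hn)
  have hn10 : 10 ≤ n := le_trans (le_trans (by norm_num) (Nat.pow_le_pow_right (n := 64)
    (by norm_num) (show 1 ≤ 140 by norm_num))) hn
  have hnR : (10 : ℝ) ≤ n := by exact_mod_cast hn10
  have h2 := exp_log_le n k hk hlog (by omega)
  obtain ⟨b', c', e, μ, hb1, hb2, hμb, hμ, hE', ha, hc, hbb, hω⟩ :=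
    shape (κ := 0) (γ := 0) (ω := 0) hn10 le_rfl (by linarith only [hnR]) le_rfl (by simp) le_rfl hb hE
      (by simpa only [ne_eq, OfNat.ofNat_ne_zero, not_false_eq_true, zero_pow, zero_add, add_zero, mul_zero] using hv)
  have hμR : (1 : ℝ) ≤ μ := by exact_mod_cast hμ
  obtain ⟨i, hi⟩ : ∃ i, k = i + 4 := ⟨k - 4, by omega⟩
  have hμn : (μ : ℝ) ≤ ((64 : ℝ) ^ k) ^ (k - 4) := by
    rw [← pow_mul]
    refine le_trans ?_ (hbn.trans h2)
    exact_mod_cast le_trans hμb hb2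
  set x : ℝ := (64 : ℝ) ^ k with hx
  have hx64 : 64 ^ 2 ≤ x := pow_le_pow_right₀ (by norm_num) (by omega)
  have hx1 : 1 ≤ x := by linarith only [hx64]
  have hx0 : 0 < x := by linarith only [hx64]
  have hk2 : (2 : ℝ) ^ k * 2 ^ k * 2 ^ k * 2 ^ k * 2 ^ k * 2 ^ k = x := by
    rw [hx, ← mul_pow, ← mul_pow, ← mul_pow, ← mul_pow, ← mul_pow]
    norm_num
  have h2k4 : (4 : ℝ) ≤ 2 ^ k := by
    calc (4 : ℝ) = 2 ^ 2 := by norm_num
      _ ≤ 2 ^ k := pow_le_pow_right₀ (by norm_num) (by omega)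
  have hkx : (k : ℝ) ≤ 2 ^ k := by
    have : k < 2 ^ k := Nat.lt_two_pow_self
    exact_mod_cast this.le
  have h2kx : (2 : ℝ) ^ k * 2 ^ k * 64 ≤ x := by
    rw [← hk2]
    have h1 : (4 : ℝ) ^ 4 ≤ (2 ^ k) ^ 4 := by gcongr
    have h2 : 0 ≤ (2 : ℝ) ^ k * 2 ^ k := by positivity
    nlinarith only [h1, h2, mul_le_mul_of_nonneg_left h1 h2]
  have h2k : (2 : ℝ) ^ k * 64 ≤ x := by nlinarith only [h2kx, h2k4]
  have hn6' : x ^ 6 ≤ n := by
    have h1 : 64 ^ (6 * k) ≤ n := le_trans (Nat.pow_le_pow_right (by norm_num) (by omega)) hkn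
    have h2 : ((64 ^ (6 * k) : ℕ) : ℝ) ≤ n := by exact_mod_cast h1
    rw [hx, ← pow_mul, mul_comm k 6]
    push_cast at h2
    exact h2
  have hsn : x ^ 3 ≤ √(n : ℝ) := by
    apply Real.le_sqrt_of_sq_le
    rw [← pow_mul]
    exact hn6'
  have hsn0 : 0 < √(n : ℝ) := lt_of_lt_of_le (by positivity) hsn
  have hL : ((k - 4 : ℕ) : ℝ) ≤ 2 ^ k := by
    refine le_trans ?_ hkx
    exact_mod_cast Nat.sub_le _ _
  refine quasi_key 4 (by norm_num) x (by linarith only [hx64])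
      (k - 4) (by omega) (by linarith only [hL, h2k, h2k4]) n hn6' ?_ b' c' e μ hμ hμn hE' ha
      (by simpa only [zero_add, mul_one] using hc) hbb (2 * x / x ^ (k - 2)) (by positivity) ?_ ?_
  · have h2 : ((k - 4 : ℕ) : ℝ) ^ 2 ≤ x := by
      calc ((k - 4 : ℕ) : ℝ) ^ 2 ≤ (2 ^ k) ^ 2 := by gcongr
        _ ≤ x := by nlinarith only [h2kx, h2k4]
    calc 4096 * ((4 : ℝ) + 2) ^ 2 * ((k - 4 : ℕ) : ℝ) ^ 2
        ≤ (64 ^ 2) ^ 2 * x := by gcongr; norm_num
      _ ≤ x ^ 2 * x := by gcongr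
      _ = x ^ 3 := by ring
      _ ≤ x ^ 6 := pow_le_pow_right₀ hx1 (by norm_num)
      _ ≤ n := hn6'
  · have h1 : 2 * x / x ^ (k - 2) * μ ≤ 2 * x := by
      rw [div_mul_eq_mul_div, div_le_iff₀ (by positivity)]
      have h3 : x ^ (k - 4) ≤ x ^ (k - 2) := pow_le_pow_right₀ hx1 (by omega)
      calc 2 * x * μ ≤ 2 * x * x ^ (k - 4) := by gcongr
        _ ≤ 2 * x * x ^ (k - 2) := by gcongr
    have h3 : 2 * x / x ^ (k - 2) * μ / √n ≤ 2 / x := by
      calc 2 * x / x ^ (k - 2) * μ / √n ≤ 2 * x / √n := div_le_div_of_nonneg_right h1 hsn0.le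
        _ ≤ 2 * x / x ^ 3 := by gcongr
        _ = 2 / x * (1 / x) := by field_simp
        _ ≤ 2 / x * 1 := by
            gcongr
            rw [div_le_one hx0]
            exact hx1
        _ = 2 / x := mul_one _
    have h4 : 6 / (n : ℝ) ≤ 6 / x := by
      gcongr
      refine le_trans ?_ hn6'
      calc x = x ^ 1 := (pow_one x).symm
        _ ≤ x ^ 6 := pow_le_pow_right₀ hx1 (by norm_num)
    calc 12 * (2 * x / x ^ (k - 2) * μ / √n) + 6 / n ≤ 12 * (2 / x) + 6 / x := by gcongr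
      _ = 30 / x := by ring
      _ ≤ 1 / 2 ^ k := by
          rw [div_le_div_iff₀ hx0 (by positivity)]
          linarith only [h2k, h2k4]
      _ ≤ 1 / 2 ^ (k - 4 + 2) := by
          apply one_div_le_one_div_of_le (by positivity)
          exact pow_le_pow_right₀ (by norm_num) (by omega)
  · intro s hs γ' hγ' hγκ'
    apply quasi_level k (by omega) (k - 2) (by omega) s _ γ' hγ'
    · rw [show k - (k - 2) = 2 by omega]
      refine hγκ'.trans ?_
      gcongr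
      norm_num
    · have h1 : 64 ^ (6 * k) * 4 ^ (k - 2) * 4 ≤ 64 ^ (7 * k) := by
        rw [show 7 * k = 6 * k + k by ring, pow_add, mul_assoc, ← pow_succ]
        apply Nat.mul_le_mul_left
        exact le_trans (Nat.pow_le_pow_left (by norm_num) _) (Nat.pow_le_pow_right (by norm_num) (by omega))
      omega

end Vale.Agent.P279
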